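import Vale.Agent.P130.Bdl.B4

/-!
# P130: a rank one transformation with simple Lebesgue spectrum
-/

namespace Vale.Agent.Results.P130.RankOne

open MeasureTheory

/-- `T` has simple Lebesgue spectrum: there is a mean zero function `f` in complex `L²(μ)` such
that the functions `f ∘ T ^ n`, `n ∈ ℤ`, form an orthonormal basis of the mean zero subspace of
`L²(μ)`, that is, they are orthonormal and a mean zero function in `L²(μ)` that is orthogonal to
all of them vanishes almost everywhere. -/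
def SimpleLebesgueSpectrum {X : Type} [MeasurableSpace X] (μ : Measure X) (T : X ≃ᵐ X) : Prop :=
  ∃ f : X → ℂ, MemLp f 2 μ ∧ ∫ x, f x ∂μ = 0 ∧
    (∀ m n : ℤ, ∫ x, f (((T.toEquiv : Equiv.Perm X) ^ m) x) *
      starRingEnd ℂ (f (((T.toEquiv : Equiv.Perm X) ^ n) x)) ∂μ = if m = n then 1 else 0) ∧
    ∀ g : X → ℂ, MemLp g 2 μ → ∫ x, g x ∂μ = 0 →
      (∀ n : ℤ, ∫ x, g x * starRingEnd ℂ (f (((T.toEquiv : Equiv.Perm X) ^ n) x)) ∂μ = 0) →
      g =ᵐ[μ] 0

/-- `T` has rank one: there is a sequence of Rokhlin towers with pairwise disjoint levels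
`B n, T (B n), …, T^(h n - 1) (B n)` such that every measurable set is approximated, for all large
`n`, by unions of levels of the `n`-th tower. -/
def IsRankOneMap {X : Type} [MeasurableSpace X] (μ : Measure X) (T : X ≃ᵐ X) : Prop :=
  ∃ (h : ℕ → ℕ) (B : ℕ → Set X), (∀ n, MeasurableSet (B n)) ∧
    (∀ n, ∀ i < h n, ∀ j < h n, i ≠ j → Disjoint (T^[i] '' B n) (T^[j] '' B n)) ∧
    ∀ A : Set X, MeasurableSet A → ∀ ε : ENNReal, 0 < ε → ∃ N : ℕ, ∀ n ≥ N, ∃ F : Finset ℕ,
      (∀ i ∈ F, i < h n) ∧ μ (symmDiff A (⋃ i ∈ F, T^[i] '' B n)) ≤ ε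

theorem mp_pow {X : Type} [MeasurableSpace X] {μ : Measure X} {T : X ≃ᵐ X}
    (hT : MeasurePreserving T μ μ) (n : ℕ) :
    MeasurePreserving (fun x => ((T.toEquiv : Equiv.Perm X) ^ n) x) μ μ := by
  induction n with
  | zero => exact MeasurePreserving.id μ
  | succ n ih =>
    have h : (fun x => ((T.toEquiv : Equiv.Perm X) ^ (n + 1)) x) =
        (fun x => ((T.toEquiv : Equiv.Perm X) ^ n) x) ∘ T := by
      funext x
      rw [pow_succ]
      rfl
    rw [h]
    exact ih.comp hT

theorem mp_zpow {X : Type} [MeasurableSpace X] {μ : Measure X} {T : X ≃ᵐ X}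
    (hT : MeasurePreserving T μ μ) (n : ℤ) :
    MeasurePreserving (fun x => ((T.toEquiv : Equiv.Perm X) ^ n) x) μ μ := by
  obtain ⟨k, rfl | rfl⟩ := n.eq_nat_or_neg
  · simpa only [zpow_natCast] using mp_pow hT k
  · have h := mp_pow (T := T.symm) (MeasurePreserving.symm T hT) k
    have h2 : (fun x => ((T.toEquiv : Equiv.Perm X) ^ (-(k : ℤ))) x) =
        (fun x => ((T.symm.toEquiv : Equiv.Perm X) ^ k) x) := by
      funext x
      rw [zpow_neg, zpow_natCast, ← inv_pow]
      rfl
    rw [h2]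
    exact h

/-- The map `T ^ n` as a measurable equivalence. -/
def zpowEquiv {X : Type} [MeasurableSpace X] {μ : Measure X} {T : X ≃ᵐ X}
    (hT : MeasurePreserving T μ μ) (n : ℤ) : X ≃ᵐ X where
  toEquiv := (T.toEquiv : Equiv.Perm X) ^ n
  measurable_toFun := (mp_zpow hT n).measurable
  measurable_invFun := by
    have h := (mp_zpow hT (-n)).measurable
    rw [zpow_neg] at h
    exact h

theorem of_simpleLebesgue {X : Type} [MeasurableSpace X] {μ : Measure X} {T : X ≃ᵐ X}
    (hT : MeasurePreserving T μ μ) (h : Vale.Agent.P130R.SimpleLebesgue μ T) :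
    SimpleLebesgueSpectrum μ T := by
  obtain ⟨f, h1, h2, h3, h4⟩ := h
  refine ⟨f, h1, h2, ?_, ?_⟩
  · intro m n
    have h5 := (mp_zpow hT n).integral_comp (zpowEquiv hT n).measurableEmbedding
      (fun y => f (((T.toEquiv : Equiv.Perm X) ^ (m - n)) y) * starRingEnd ℂ (f y))
    have h6 : ∀ x, ((T.toEquiv : Equiv.Perm X) ^ (m - n))
        (((T.toEquiv : Equiv.Perm X) ^ n) x) = ((T.toEquiv : Equiv.Perm X) ^ m) x := by
      intro x
      rw [← Equiv.Perm.mul_apply, ← zpow_add, sub_add_cancel]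
    simp only [h6] at h5
    rw [h5, h3]
    simp only [sub_eq_zero]
  · intro g hg1 hg2 hg3
    apply h4 g hg1 hg2
    intro n
    have h5 := hg3 n
    have h6 : ∫ x, f (((T.toEquiv : Equiv.Perm X) ^ n) x) * starRingEnd ℂ (g x) ∂μ =
        starRingEnd ℂ (∫ x, g x * starRingEnd ℂ (f (((T.toEquiv : Equiv.Perm X) ^ n) x)) ∂μ) := by
      rw [← integral_conj]
      congr 1
      funext x
      simp [mul_comm]
    rw [h6, h5, map_zero]

theorem iter_image {X : Type} [MeasurableSpace X] (T : X ≃ᵐ X) (i : ℕ) (s : Set X) :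
    T^[i] '' s = (T.symm)^[i] ⁻¹' s := by
  have h1 : Function.LeftInverse (T.symm)^[i] T^[i] :=
    Function.LeftInverse.iterate T.symm_apply_apply i
  have h2 : Function.RightInverse (T.symm)^[i] T^[i] :=
    Function.LeftInverse.iterate T.apply_symm_apply i
  rw [Set.image_eq_preimage_of_inverse h1 h2]

theorem iter_level {X : Type} [MeasurableSpace X] (T : X ≃ᵐ X) (B : ℕ → Set X) (n i : ℕ) :
    Vale.Agent.P130R.level T B n i = T^[i] '' B n := (iter_image T i (B n)).symm

theorem last_lt (D : Vale.Agent.P130R.Cuts) (n i k : ℕ) (hi : i < D.h n) (hk : k < D.q n) :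
    i + D.a n k < D.h (n + 1) := by
  have h1 := D.h_succ n
  have h2 := D.S_le n k
  unfold Vale.Agent.P130R.Cuts.a Vale.Agent.P130R.Cuts.H
  unfold Vale.Agent.P130R.Cuts.q at hk
  rw [h1]
  have h3 : (k + 1) * (D.h n + D.K n + 2) ≤ 2 ^ D.ex n * (D.h n + D.K n + 2) :=
    Nat.mul_le_mul_right _ hk
  rw [add_mul, one_mul] at h3
  omega

theorem isRankOneMap_of {D : Vale.Agent.P130R.Cuts} {X : Type} [MeasurableSpace X]
    {μ : Measure X} {T : X ≃ᵐ X} {B : ℕ → Set X} (hB : Vale.Agent.P130R.IsRankOne D μ T B) :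
    IsRankOneMap μ T := by
  obtain ⟨h1, h2, h3, h4, h5, h6⟩ := hB
  refine ⟨D.h, B, h2, ?_, ?_⟩
  · intro n i hi j hj hij
    rw [← iter_level, ← iter_level]
    exact h4 n i hi j hj hij
  · intro A hA ε hε
    obtain ⟨N, F, hF, hμ⟩ := h6 A hA ε hε
    refine ⟨N, fun n hn => ?_⟩
    have key : ∃ G : Finset ℕ, (∀ i ∈ G, i < D.h n) ∧
        (⋃ i ∈ G, T^[i] '' B n) = ⋃ i ∈ F, Vale.Agent.P130R.level T B N i := by
      induction n, hn using Nat.le_induction with
      | base =>
        refine ⟨F, hF, ?_⟩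
        simp only [iter_level]
      | succ n hn ih =>
        obtain ⟨G, hG, hGe⟩ := ih
        classical
        refine ⟨G.biUnion fun i => (Finset.range (D.q n)).image fun k => i + D.a n k, ?_, ?_⟩
        · intro j hj
          simp only [Finset.mem_biUnion, Finset.mem_image, Finset.mem_range] at hj
          obtain ⟨i, hi, k, hk, rfl⟩ := hj
          exact last_lt D n i k (hG i hi) hk
        · rw [← hGe]
          ext x
          simp only [Finset.mem_biUnion, Finset.mem_image, Finset.mem_range, Set.mem_iUnion,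
            exists_prop]
          constructor
          · rintro ⟨j, ⟨i, hi, k, hk, rfl⟩, hx⟩
            refine ⟨i, hi, ?_⟩
            rw [Function.iterate_add, Set.image_comp] at hx
            obtain ⟨y, hy, rfl⟩ := hx
            refine ⟨y, ?_, rfl⟩
            rw [h5 n]
            simp only [Set.mem_iUnion, Finset.mem_range, exists_prop]
            refine ⟨k, hk, ?_⟩
            rw [iter_level]
            exact hy
          · rintro ⟨i, hi, y, hy, rfl⟩
            rw [h5 n] at hy
            simp only [Set.mem_iUnion, Finset.mem_range, exists_prop] at hy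
            obtain ⟨k, hk, hy⟩ := hy
            rw [iter_level] at hy
            refine ⟨i + D.a n k, ⟨i, hi, k, hk, rfl⟩, ?_⟩
            rw [Function.iterate_add, Set.image_comp]
            exact ⟨y, hy, rfl⟩
    obtain ⟨G, hG, hGe⟩ := key
    refine ⟨G, hG, ?_⟩
    rw [hGe]
    exact hμ

/-- **Positive answer to Banach's problem.** There is a rank one invertible measure preserving
transformation of a standard nonatomic probability space with simple Lebesgue spectrum. -/
theorem result : ∃ (X : Type) (_ : MeasurableSpace X) (_ : StandardBorelSpace X) (μ : Measure X)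
    (_ : IsProbabilityMeasure μ) (T : X ≃ᵐ X), (∀ x, μ {x} = 0) ∧ MeasurePreserving T μ μ ∧
    SimpleLebesgueSpectrum μ T ∧ IsRankOneMap μ T := by
  obtain ⟨D, C, U, hD⟩ := Vale.Agent.P130R.cutsExist
  obtain ⟨X, i1, i2, μ, i3, T, B, h4, hB⟩ :=
    Vale.Agent.P130R.sys Vale.Agent.P130R.odo Vale.Agent.P130R.susp D
  exact ⟨X, i1, i2, μ, i3, T, h4, hB.1, of_simpleLebesgue hB.1
    (Vale.Agent.P130R.koop Vale.Agent.P130R.abs D C U hD X i1 μ i3 T B hB), isRankOneMap_of hB⟩

end Vale.Agent.Results.P130.RankOne
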