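import Vale.Agent.P130.Bdl.B3

open MeasureTheory

namespace Vale.Agent.Results.P130.SimpleLebesgue

/-- There is an invertible measure-preserving transformation `T` of a standard nonatomic
probability space `(X, μ)` with simple Lebesgue spectrum: for some mean-zero `f ∈ L²(X, μ)` the
functions `f ∘ T ^ n`, `n ∈ ℤ`, form an orthonormal basis of the mean-zero part of `L²(X, μ)`. -/
theorem result :
    ∃ (X : Type) (_ : MeasurableSpace X) (_ : StandardBorelSpace X)
      (μ : Measure X) (_ : IsProbabilityMeasure μ) (T : X ≃ᵐ X),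
      (∀ x : X, μ {x} = 0) ∧ MeasurePreserving T μ μ ∧
      ∃ f : X → ℂ, MemLp f 2 μ ∧ ∫ x, f x ∂μ = 0 ∧
        (∀ m n : ℤ, ∫ x, starRingEnd ℂ (f (((T.toEquiv : Equiv.Perm X) ^ m) x)) *
            f (((T.toEquiv : Equiv.Perm X) ^ n) x) ∂μ = if m = n then 1 else 0) ∧
        ∀ g : X → ℂ, MemLp g 2 μ → ∫ x, g x ∂μ = 0 →
          (∀ n : ℤ, ∫ x, starRingEnd ℂ (f (((T.toEquiv : Equiv.Perm X) ^ n) x)) * g x ∂μ = 0) →
          g =ᵐ[μ] 0 := by
  obtain ⟨X, mX, sb, μ, pm, na, T, hT, f, h1, h2, h3, h4⟩ := Vale.Agent.P130.banach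
  exact ⟨X, mX, sb, μ, pm, T, fun x => measure_singleton x, hT, f, h1, h2, h3, h4⟩

end Vale.Agent.Results.P130.SimpleLebesgue
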